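import Vale.Agent.P181.RV.Defs
import Vale.Agent.P181.RG.H410.Fin
import Vale.Agent.P181.PL.Defs

set_option autoImplicit false

/-!
# P181, LINE RV, [FINV]: the polylogarithmic form from `CorV` and `PL.PolyS`
-/

namespace Vale.Agent.P181.RV.H829

open Filter
open Vale.Agent.P181.RV
open Vale.Agent.P181.RG.H410 (ev_log one_le_L Gap m_le)
open Vale.Agent.P181.H280 (plethMult)

/-- The core for every number of rows. -/
theorem coreN {a₀ : ℕ} {Q : ℕ → ℕ → ℕ → Prop}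
    (hC : ∀ (a b X m n : ℕ) (lam : Fin n → ℕ), a₀ ≤ a → Antitone lam →
      ∑ i, lam i = a * b → n ≤ a → Q a b X → b ≤ X * a → 3 ≤ m → m ≤ n →
      m ≤ X ^ 2 → Gap a X m n lam → plethMult a b n lam ≤ plethMult b a n lam)
    {a b X m n : ℕ} {lam : Fin n → ℕ} (ha : a₀ ≤ a) (ha0 : 0 < a) (hanti : Antitone lam)
    (hsum : ∑ i, lam i = a * b) (hQ : Q a b X)
    (hb : b ≤ X * a) (hm : 3 ≤ m) (hmn : m ≤ n) (hg : Gap a X m n lam) :
    plethMult a b n lam ≤ plethMult b a n lam := by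
  have hmX := m_le ha0 hsum hb hmn hg
  rcases le_or_gt n a with hn | hn
  · exact hC a b X m n lam ha hanti hsum hn hQ hb hm hmn hmX hg
  by_cases hz : plethMult a b n lam = 0
  · rw [hz]
    exact Nat.zero_le _
  obtain ⟨-, -, hrow⟩ := H530.zero_stmt a b n lam hz
  have hma : m ≤ a := by
    by_contra hc
    push Not at hc
    have h1 := (hg ⟨a, hn⟩ hc).1
    have h2 := hrow ⟨a, hn⟩ le_rfl
    rw [h2, mul_zero] at h1
    have : 0 < a ^ 2 := by positivity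
    omega
  obtain ⟨l, rfl⟩ := Nat.exists_eq_add_of_lt hn
  obtain ⟨mu, hmu⟩ : ∃ mu : Fin a → ℕ, mu = fun j : Fin a => lam ⟨(j : ℕ), by omega⟩ :=
    ⟨_, rfl⟩
  have hlam' : lam = fun i : Fin (a + (l + 1)) =>
      if h : (i : ℕ) < a then mu ⟨i, h⟩ else 0 := by
    funext i
    by_cases hi : (i : ℕ) < a
    · rw [dif_pos hi, hmu]
    · rw [dif_neg hi]
      exact hrow i (by omega)
  have hmu1 : Antitone mu := by
    intro i j hij
    have hij' : (i : ℕ) ≤ j := hij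
    rw [hmu]
    exact hanti (show (⟨i, by omega⟩ : Fin (a + l + 1)) ≤ ⟨j, by omega⟩ from hij')
  have hmu2 : ∑ i, mu i = a * b := by
    rw [← hsum]
    have h3 : ∑ i : Fin (a + (l + 1)), lam i = ∑ i : Fin a, lam (Fin.castAdd (l + 1) i) +
        ∑ i : Fin (l + 1), lam (Fin.natAdd a i) := Fin.sum_univ_add _
    have h2 : ∑ i : Fin (l + 1), lam (Fin.natAdd a i) = 0 := by
      apply Finset.sum_eq_zero
      intro i _
      exact hrow _ (by simp)
    rw [h2, add_zero] at h3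
    rw [hmu]
    exact h3.symm
  have hmug : Gap a X m a mu := by
    intro i hi
    have h1 := hg ⟨i, by omega⟩ hi
    refine ⟨by rw [hmu]; exact h1.1, fun j hj => ?_⟩
    have h2 := h1.2 ⟨j, by omega⟩ hj
    rw [hmu]
    exact h2
  have h4 := hC a b X m a mu ha hmu1 hmu2 le_rfl hQ hb hm hma hmX hmug
  have h5 : plethMult a b (a + (l + 1)) lam = plethMult a b a mu := by
    rw [hlam']
    exact H530.pad_stmt a b a (l + 1) mu
  have h6 : plethMult b a (a + (l + 1)) lam = plethMult b a a mu := by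
    rw [hlam']
    exact H530.pad_stmt b a a (l + 1) mu
  exact h5.trans_le (h4.trans_eq h6.symm)

/-- **[FINV]** -/
theorem finV (hC : CorV) (hPL : PL.PolyS) : FinV := by
  intro δ hδ C₀ c₀ hC₀ hc₀
  obtain ⟨C', c', -, hP⟩ := hPL
  obtain ⟨q, hq1, hqδ⟩ : ∃ q : ℕ, 1 ≤ q ∧ 1 ≤ q * δ := by
    refine ⟨⌈1 / δ⌉₊ + 1, by omega, ?_⟩
    have h1 : 1 / δ ≤ ((⌈1 / δ⌉₊ + 1 : ℕ) : ℝ) := by
      push_cast
      exact (Nat.le_ceil _).trans (by linarith)
    rwa [div_le_iff₀ hδ] at h1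
  obtain ⟨a₀, hcore⟩ := hC q hq1
  obtain ⟨C1, hC1, hC1'⟩ : ∃ C1 : ℝ, 1 ≤ C1 ∧ C' ≤ C1 := ⟨max 1 C', le_max_left _ _,
    le_max_right _ _⟩
  obtain ⟨e, hee1, hee2⟩ : ∃ e : ℕ, c' ≤ e ∧ c₀ ≤ e :=
    ⟨c' + ⌈c₀⌉₊, Nat.le_add_right _ _, (Nat.le_ceil c₀).trans (by
      push_cast
      linarith [(Nat.cast_nonneg c' : (0 : ℝ) ≤ c')])⟩
  have hqR : (1 : ℝ) ≤ q := by exact_mod_cast hq1
  obtain ⟨K1, hK1⟩ : ∃ K1, K1 = C₀ + C1 + 2 * q := ⟨_, rfl⟩
  obtain ⟨a₁, ha₁⟩ := ev_log ((K1 + 1) ^ (200 * q)) (e * (200 * q))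
  refine ⟨a₀ + a₁ + 1, ?_⟩
  intro a b m n lam hbig hanti hsum hab hm hmn hgap
  have haR0 : (0 : ℝ) ≤ a := Nat.cast_nonneg a
  have hbR : (0 : ℝ) ≤ b := Nat.cast_nonneg b
  have hL := one_le_L a
  have ha : 0 < a := by omega
  have haR : (1 : ℝ) ≤ a := by exact_mod_cast ha
  have hP1 := hP a b
  have ha1 := ha₁ a (by omega)
  obtain ⟨L, hLe⟩ : ∃ L, L = 1 + Real.log a := ⟨_, rfl⟩
  rw [← hLe] at hL hgap hP1 ha1
  rw [pow_mul L e (200 * q)] at ha1
  obtain ⟨P, hPe⟩ : ∃ P, P = L ^ e := ⟨_, rfl⟩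
  rw [← hPe] at ha1
  have hP0 : 1 ≤ P := by rw [hPe]; exact one_le_pow₀ hL
  have hLP : L ^ c' ≤ P := by rw [hPe]; exact pow_le_pow_right₀ hL hee1
  have hLP2 : L ^ c₀ ≤ P := by
    rw [hPe, ← Real.rpow_natCast]
    exact Real.rpow_le_rpow_of_exponent_le hL hee2
  -- large `b`
  by_cases hb : C1 * a * P ≤ b
  · refine hP1 ?_ _ _
    refine le_trans ?_ hb
    have : 0 ≤ L ^ c' := by positivity
    calc C' * a * L ^ c' ≤ C1 * a * L ^ c' := by gcongr
      _ ≤ C1 * a * P := by gcongr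
  push Not at hb
  have hK1' : 2 ≤ K1 := by rw [hK1]; linarith
  obtain ⟨X, hX⟩ : ∃ X, X = ⌈K1 * P⌉₊ := ⟨_, rfl⟩
  have hX1 : K1 * P ≤ X := by rw [hX]; exact Nat.le_ceil _
  have hX2 : (X : ℝ) ≤ (K1 + 1) * P := by
    rw [hX]
    have := (Nat.ceil_lt_add_one (show 0 ≤ K1 * P by positivity)).le
    linarith
  have hKP : C₀ * P + C1 * P + 2 * q * P ≤ X := by
    refine le_trans (le_of_eq ?_) hX1
    rw [hK1]
    ring
  have hC0P : 0 ≤ C₀ * P := by positivity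
  have hC1P : 0 ≤ C1 * P := by positivity
  have hqP : (q : ℝ) ≤ q * P := le_mul_of_one_le_right (by linarith) hP0
  have hX40 : X ^ (200 * q) ≤ a := by
    have : (X : ℝ) ^ (200 * q) ≤ a := by
      calc (X : ℝ) ^ (200 * q) ≤ ((K1 + 1) * P) ^ (200 * q) := by gcongr
        _ = (K1 + 1) ^ (200 * q) * P ^ (200 * q) := by rw [mul_pow]
        _ ≤ a := ha1
    exact_mod_cast this
  have hX2' : 2 * q ≤ X := by
    have : (2 : ℝ) * q ≤ X := by linarith
    exact_mod_cast this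
  have hbX : b ≤ X * a := by
    have : (b : ℝ) ≤ X * a := by
      calc (b : ℝ) ≤ C1 * a * P := hb.le
        _ = (C1 * P) * a := by ring
        _ ≤ X * a := by
            have : C1 * P ≤ X := by linarith
            gcongr
    exact_mod_cast this
  have hqb : (q + 1) * a ≤ q * b := by
    have : ((q : ℝ) + 1) * a ≤ q * b := by
      calc ((q : ℝ) + 1) * a ≤ (q + q * δ) * a := by gcongr
        _ = q * ((1 + δ) * a) := by ring
        _ ≤ q * b := by gcongr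
    exact_mod_cast this
  have hCX : C₀ * L ^ c₀ ≤ X := by
    have h1 : C₀ * L ^ c₀ ≤ C₀ * P := by gcongr
    linarith
  have hCL : 0 ≤ C₀ * L ^ c₀ := by positivity
  have ha2 : (0 : ℝ) < (a : ℝ) ^ 2 := by positivity
  refine coreN (a₀ := a₀)
    (Q := fun a b X => 2 * q ≤ X ∧ X ^ (200 * q) ≤ a ∧ (q + 1) * a ≤ q * b) ?_
    (by omega) ha hanti hsum ⟨hX2', hX40, hqb⟩ hbX hm hmn ?_
  · intro a b X m n lam ha0 hanti hsum hna hQ hbX hm3 hmn hmX hg
    obtain ⟨k, rfl⟩ : ∃ k, n = k + 2 := ⟨n - 2, by omega⟩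
    exact hcore a b X m k lam ha0 hanti hsum hna hQ.1 hQ.2.1 hQ.2.2 hbX hm3 hmn hmX hg
  intro i hi
  obtain ⟨h1, h2⟩ := hgap i hi
  constructor
  · have : (a : ℝ) ^ 2 ≤ X * lam i := by
      refine h1.trans ?_
      gcongr
    exact_mod_cast this
  · intro j hj
    have h3 := h2 j hj
    have h4 : 0 < (lam i : ℝ) - lam j := by
      by_contra hcon
      push Not at hcon
      have := mul_nonpos_of_nonneg_of_nonpos hCL hcon
      linarith
    have h5 : (a : ℝ) ^ 2 ≤ X * ((lam i : ℝ) - lam j) := by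
      refine h3.trans ?_
      gcongr
    have : (a : ℝ) ^ 2 + X * lam j ≤ X * lam i := by linarith
    exact_mod_cast this

end Vale.Agent.P181.RV.H829
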